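import Vale.Agent.P088.Pure

open MeasureTheory Set
open scoped ContDiff

namespace Vale.Agent.Results.P088.ShellFlatPairGauge

open Vale.Agent.P088

theorem result : ∀ a b : ℝ, 0 < a → a < b → ∀ m : ℕ, 0 < m →
    ∀ (sig : Coef) (A : Conn m), IsOrthConn A → AboveEuclid a b sig →
      SameOuterData a b euclid (0 : Conn m) sig A →
      (∀ x ∈ closure (shell a b), ∀ i j, sig x i j = euclid x i j) ∧
      ∃ U : Sp → Fin m → Fin m → ℝ,
        (∀ p q, ContDiffOn ℝ ∞ (fun x => U x p q) (closure (shell a b))) ∧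
        (∀ x ∈ closure (shell a b), sqLen x = b ^ 2 → ∀ p q, U x p q = if p = q then 1 else 0) ∧
        ∀ x ∈ closure (shell a b),
          (∀ p q, ∑ r, U x r p * U x r q = if p = q then 1 else 0) ∧
          (∀ J : Fin m → Fin m → ℝ,
            (∀ y i p q, ∑ r, J p r * A y i r q = ∑ r, A y i p r * J r q) →
            ∀ p q, ∑ r, J p r * U x r q = ∑ r, U x p r * J r q) ∧
          ∀ p q, DifferentiableAt ℝ (fun y => U y p q) x ∧
            ∀ i, A x i p q = ∑ r, U x r p * dd i (fun y => U y r q) x :=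
  fun _ _ ha hab _ hm _ _ hA hs hS => exists_gauge ha hab hm hA hs hS

end Vale.Agent.Results.P088.ShellFlatPairGauge
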